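import Mathlib

/-!
# P061: cuts, edge connectivity, spanning trees and thinness for Mathlib's multigraphs

`Graph α β` is Mathlib's type of multigraphs with vertices in `α` and edges in `β`.
-/

namespace Vale.Agent.N061.T

variable {α β : Type*}

/-- `S` is a nonempty proper subset of the vertex set of `G`. -/
def Side (G : Graph α β) (S : Set α) : Prop := S.Nonempty ∧ S ⊂ G.vertexSet

/-- `δ_G(S)`: the edges of `G` with one end in `S` and the other end outside `S`. -/
def cut (G : Graph α β) (S : Set α) : Set β := {e | ∃ x ∈ S, ∃ y ∉ S, G.IsLink e x y}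

/-- Every cut of `G` has at least `k` edges. -/
def EdgeConn (G : Graph α β) (k : ℕ) : Prop := ∀ S, Side G S → (k : ℕ∞) ≤ (cut G S).encard

/-- `T` is a spanning subgraph of `G` without loops and parallel edges, and it is a tree. -/
def SpanningTree (T G : Graph α β) : Prop :=
  T.IsSpanningSubgraph G ∧ T.Simple ∧ T.toSimpleGraph.IsTree

/-- `|δ_T(S)| ≤ a |δ_G(S)|` for all finite cuts of `G` (all cuts, if `G` is finite). -/
def Thin (a : ℝ) (T G : Graph α β) : Prop :=
  ∀ S, Side G S → (cut G S).Finite → ((cut T S).ncard : ℝ) ≤ a * (cut G S).ncard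

end Vale.Agent.N061.T
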