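import Vale.Agent.N061.T.Defs

/-! # P061: examples (thick stars; the graphs of Aharoni and Thomassen) -/

namespace Vale.Agent.N061.T

open Set

variable {α β : Type*}

/-- the graph on all of `α` whose edges are the `e` with `u e ≠ v e` -/
def ofEnds (u v : β → α) : Graph α β where
  vertexSet := univ
  IsLink e x y := u e ≠ v e ∧ s(x, y) = s(u e, v e)
  isLink_symm _ _ := ⟨fun _ _ h => ⟨h.1, Sym2.eq_swap.trans h.2⟩⟩
  eq_or_eq_of_isLink_of_isLink _ _ _ _ _ h h' :=
    (Sym2.eq_iff.1 (h.2.trans h'.2.symm)).imp And.left And.left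
  left_mem_of_isLink _ _ _ _ := mem_univ _

theorem loopless (u v : β → α) : (ofEnds u v).Loopless :=
  ⟨fun _ _ h => h.1 (by rcases Sym2.eq_iff.1 h.2 with k | k <;> rw [← k.1, ← k.2])⟩

theorem mem_cut_ofEnds {u v : β → α} {S : Set α} {e : β} :
    e ∈ cut (ofEnds u v) S ↔ ¬ (u e ∈ S ↔ v e ∈ S) := by
  constructor
  · rintro ⟨x, hx, y, hy, -, h⟩
    rcases Sym2.eq_iff.1 h with ⟨rfl, rfl⟩ | ⟨rfl, rfl⟩ <;> tauto
  · intro h
    have k : u e ≠ v e := fun k => h (by rw [k])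
    by_cases l : u e ∈ S
    · exact ⟨_, l, _, by tauto, k, rfl⟩
    · exact ⟨v e, by tauto, _, l, k, Sym2.eq_swap⟩

theorem le_encard {k : ℕ} {A : Set β} (f : Fin k → β) (h1 : f.Injective) (h2 : ∀ i, f i ∈ A) :
    (k : ℕ∞) ≤ A.encard := by
  simpa using Function.Embedding.encard_le (s := (univ : Set (Fin k))) (t := A)
    ⟨fun i => ⟨f i, h2 i⟩, fun i j h => Subtype.ext (h1 (congrArg Subtype.val h))⟩

theorem of_reach {T : Graph α β} {a b : T.vertexSet} (h : T.toSimpleGraph.Reachable a b) :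
    ∃ P : Set β, P.Finite ∧ P ⊆ T.edgeSet ∧ ∀ R, a.1 ∈ R → b.1 ∉ R → (P ∩ cut T R).Nonempty := by
  obtain ⟨p⟩ := h
  induction p with
  | nil => exact ⟨∅, finite_empty, empty_subset _, fun R h1 h2 => absurd h1 h2⟩
  | @cons u v w h p ih =>
    obtain ⟨P, h1, h2, h3⟩ := ih
    obtain ⟨-, e, he⟩ := h
    refine ⟨insert e P, h1.insert e, insert_subset he.edge_mem h2, fun R k1 k2 => ?_⟩
    by_cases k : v.1 ∈ R
    · exact (h3 R k k2).mono (inter_subset_inter_left _ (subset_insert _ _))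
    · exact ⟨e, mem_insert _ _, _, k1, _, k, he⟩

theorem star (n k : ℕ) : ∃ G : Graph (Fin (n + 2)) (Fin (n + 2) × Fin k), G.vertexSet = univ ∧
    G.Loopless ∧ EdgeConn G k ∧ ∀ T a, SpanningTree T G → Thin a T G → 1 ≤ a * k := by
  refine ⟨ofEnds (fun _ => 0) Prod.fst, rfl, loopless _ _, fun S ⟨⟨a, ha⟩, h⟩ => ?_,
    fun T a h1 h2 => ?_⟩
  · obtain ⟨b, -, hb⟩ := exists_of_ssubset h
    by_cases k0 : 0 ∈ S
    · exact le_encard (fun i => (b, i)) (fun i j h => (Prod.ext_iff.1 h).2) fun i =>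
        mem_cut_ofEnds.2 (by tauto)
    · exact le_encard (fun i => (a, i)) (fun i j h => (Prod.ext_iff.1 h).2) fun i =>
        mem_cut_ofEnds.2 (by tauto)
  · have k1 := h2 {1} ⟨singleton_nonempty _, subset_univ _, fun h => by
      simpa using h (mem_univ 0)⟩ (toFinite _)
    have k2 : cut (ofEnds (fun _ => 0) Prod.fst : Graph (Fin (n + 2)) (Fin (n + 2) × Fin k)) {1} =
        (fun i => (1, i)) '' univ := by
      ext ⟨x, i⟩
      simp [mem_cut_ofEnds, eq_comm]
    rw [k2, ncard_image_of_injective _ fun i j h => (Prod.ext_iff.1 h).2] at k1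
    obtain ⟨P, -, -, k3⟩ := of_reach (h1.2.2.connected.preconnected
      ⟨1, h1.1.vertexSet_eq ▸ mem_univ _⟩ ⟨0, h1.1.vertexSet_eq ▸ mem_univ _⟩)
    have k4 : (1 : ℝ) ≤ (cut T {1}).ncard := Nat.one_le_cast.2 ((ncard_pos (toFinite _)).2
      ((k3 {1} rfl (by simp)).mono inter_subset_right))
    simpa using k4.trans k1

variable {K N : ℕ} (en : Fin N ≃ (Fin K → Fin K))

/-- The points of the subdivided edge `(w, m, i, t)`: it is the `t`-th parallel edge from
`m K + i` to `m K + i + 1` in the copy `w` of a thick ray. -/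
def pt (b : List (ℕ × Fin N) × ℕ × Fin K × Fin K) : ℕ → List (ℕ × Fin N) × ℕ
  | 0 => (b.1, b.2.1 * K + b.2.2.1)
  | l + 1 => if h : l < N then
      if en ⟨l, h⟩ b.2.2.1 = b.2.2.2 then ((b.2.1, ⟨l, h⟩) :: b.1, b.2.2.1 * K) else pt b l
    else (b.1, b.2.1 * K + b.2.2.1 + 1)

/-- the graph -/
def AT : Graph (List (ℕ × Fin N) × ℕ) ((List (ℕ × Fin N) × ℕ × Fin K × Fin K) × ℕ) :=
  ofEnds (fun e => pt en e.1 e.2) fun e => pt en e.1 (e.2 + 1)

theorem pt_cases (b : List (ℕ × Fin N) × ℕ × Fin K × Fin K) (l : ℕ) :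
    ((pt en b l).1 = b.1 ∧ b.2.1 * K ≤ (pt en b l).2) ∨
      ∃ j, en j b.2.2.1 = b.2.2.2 ∧ (pt en b l).1 = (b.2.1, j) :: b.1 := by
  induction l with
  | zero => exact Or.inl ⟨rfl, Nat.le_add_right _ _⟩
  | succ l ih =>
    rw [pt]
    split_ifs with h1 h2
    exacts [Or.inr ⟨_, h2, rfl⟩, ih, Or.inl ⟨rfl, by simp only; omega⟩]

theorem pt_suffix (b : List (ℕ × Fin N) × ℕ × Fin K × Fin K) (l : ℕ) : b.1 <:+ (pt en b l).1 := by
  rcases pt_cases en b l with h | ⟨j, -, h⟩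
  · rw [h.1]
  · exact h ▸ List.suffix_cons _ _

theorem le_of_ne {b : List (ℕ × Fin N) × ℕ × Fin K × Fin K} {l : ℕ}
    (h : pt en b l ≠ pt en b (l + 1)) : l ≤ N := by
  by_contra k
  obtain ⟨l, rfl⟩ := Nat.exists_eq_add_one_of_ne_zero (n := l) (by omega)
  exact h (by rw [pt, pt, dif_neg (by omega), dif_neg (by omega)])

theorem cross {b : List (ℕ × Fin N) × ℕ × Fin K × Fin K} {S : Set (List (ℕ × Fin N) × ℕ)} {l : ℕ}
    (h : ¬ (pt en b 0 ∈ S ↔ pt en b l ∈ S)) : ∃ j, (b, j) ∈ cut (AT en) S := by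
  by_contra k
  refine h ?_
  clear h
  induction l with
  | zero => rfl
  | succ l ih => exact ih.trans (not_not.1 fun h => k ⟨l, mem_cut_ofEnds.2 h⟩)

theorem conn (hK : 0 < K) : EdgeConn (AT en) K := by
  rintro S ⟨⟨a, ha⟩, h⟩
  obtain ⟨b, -, hb⟩ := exists_of_ssubset h
  by_cases h1 : ∃ w x, ¬ ((w, x) ∈ S ↔ (w, x + 1) ∈ S)
  · obtain ⟨w, x, h1⟩ := h1
    choose j hj using fun t : Fin K => cross en (S := S) (l := N + 1)
      (b := (w, x / K, ⟨x % K, Nat.mod_lt _ hK⟩, t)) (by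
        rwa [pt, pt, dif_neg (lt_irrefl N), Nat.div_add_mod'])
    exact le_encard _ (fun s t h => congrArg (·.1.2.2.2) h) hj
  have h2 : ∀ w x, ((w, x) ∈ S ↔ (w, 0) ∈ S) := fun w x => by
    induction x with
    | zero => rfl
    | succ x ih => exact (not_not.1 fun k => h1 ⟨w, x, k⟩).symm.trans ih
  by_cases h3 : ∃ w a, ¬ ((w, 0) ∈ S ↔ (a :: w, 0) ∈ S)
  · obtain ⟨w, ⟨m, l⟩, h3⟩ := h3
    choose j hj using fun i : Fin K => cross en (S := S) (l := l + 1) (b := (w, m, i, en l i)) (by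
      rwa [pt, pt, dif_pos l.2, if_pos rfl, h2, h2 (_ :: _)])
    exact le_encard _ (fun s t h => congrArg (·.1.2.2.1) h) hj
  have h4 : ∀ w, ((w, 0) ∈ S ↔ ([], 0) ∈ S) := fun w => by
    induction w with
    | nil => rfl
    | cons a w ih => exact (not_not.1 fun k => h3 ⟨w, a, k⟩).symm.trans ih
  exact absurd ((h2 b.1 b.2).2 ((h4 _).2 ((h4 _).1 ((h2 a.1 a.2).1 ha)))) hb

theorem locfin (hK : 0 < K) (v : List (ℕ × Fin N) × ℕ) : ((AT en).incidenceSet v).Finite := by
  refine ((((finite_singleton v.1.tail).insert v.1).prod ((finite_le_nat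
    (v.2 + (v.1.map Prod.fst).headD 0)).prod finite_univ)).prod (finite_le_nat N)).subset ?_
  rintro ⟨b, l⟩ ⟨y, h1, h2⟩
  obtain ⟨l', rfl⟩ : ∃ l', pt en b l' = v := by
    rcases Sym2.eq_iff.1 h2 with k | k
    exacts [⟨_, k.1.symm⟩, ⟨_, k.1.symm⟩]
  refine ⟨?_, le_of_ne en h1⟩
  rcases pt_cases en b l' with h | ⟨j, -, h⟩
  · exact ⟨Or.inl h.1.symm, ((Nat.le_mul_of_pos_right _ hK).trans h.2).trans
      (Nat.le_add_right _ _), mem_univ _⟩
  · exact ⟨Or.inr (by simp [h]), by simp [h], mem_univ _⟩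

theorem cut_desc {w : List (ℕ × Fin N)} {m : ℕ} {j : Fin N} {e}
    (h : e ∈ cut (AT en) {v | (m, j) :: w <:+ v.1}) :
    ∃ i, e.1 = (w, m, i, en j i) ∧ pt en e.1 e.2 ≠ pt en e.1 (e.2 + 1) := by
  obtain ⟨⟨w', m', i, t⟩, l⟩ := e
  replace h := mem_cut_ofEnds.1 h
  have h1 : ¬ (m, j) :: w <:+ w' := fun k =>
    h (iff_of_true (k.trans (pt_suffix en (w', m', i, t) _)) (k.trans (pt_suffix en (w', m', i, t) _)))
  obtain ⟨l', h2⟩ : ∃ l', (m, j) :: w <:+ (pt en (w', m', i, t) l').1 := by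
    by_contra k
    exact h (iff_of_false (fun a => k ⟨_, a⟩) fun a => k ⟨_, a⟩)
  refine ⟨i, ?_, fun k => h (by rw [k])⟩
  rcases pt_cases en (w', m', i, t) l' with k | ⟨j', k1, k2⟩
  · exact absurd (by rwa [k.1] at h2) h1
  · obtain ⟨⟨rfl, rfl⟩, rfl⟩ := (List.suffix_cons_iff.1 (k2 ▸ h2)).resolve_right h1
    exact k1 ▸ rfl

theorem separate (hK : 0 < K) {P : Set ((List (ℕ × Fin N) × ℕ × Fin K × Fin K) × ℕ)} {d : ℕ}
    (hd : ∀ e ∈ P, e.1.1.length < d)
    (hP : ∀ w m, ∃ i, ∀ t, ∃ l, pt en (w, m, i, t) l ≠ pt en (w, m, i, t) (l + 1) ∧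
      ((w, m, i, t), l) ∉ P) (n : ℕ) : ∀ w : List (ℕ × Fin N), d ≤ w.length + n → ∀ θ,
    ∃ R, (∀ e ∈ P, w <:+ e.1.1 → e ∉ cut (AT en) R) ∧ ∀ i, ((w, i * K) ∈ R ↔ i < θ) := by
  induction n with
  | zero => exact fun w hw θ => ⟨{v | v.2 < θ * K}, fun e he h =>
      absurd (hd e he) (by have := h.length_le; omega), fun i => Nat.mul_lt_mul_right hK⟩
  | succ n ih =>
    intro w hw θ
    obtain _ | m := θ
    · exact ⟨∅, fun e _ _ ⟨_, h, _⟩ => h, by simp⟩
    obtain ⟨i₀, h0⟩ := hP w m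
    choose L L1 L2 using h0
    choose Q Q1 Q2 using fun j : Fin N => ih ((m, j) :: w) (by simp; omega)
      (if j < L (en j i₀) then i₀ + 1 else i₀)
    obtain ⟨R, hR⟩ : ∃ R : Set (List (ℕ × Fin N) × ℕ), R = {v | (v.1 = w ∧ v.2 ≤ m * K + i₀) ∨
      ∃ m' j, (m', j) :: w <:+ v.1 ∧ (m' < m ∨ m' = m ∧ v ∈ Q j)} := ⟨_, rfl⟩
    have r1 : ∀ x, (w, x) ∈ R ↔ x ≤ m * K + i₀ := fun x => hR ▸
      ⟨fun h => h.elim And.right fun ⟨_, _, k, _⟩ => absurd k.length_le (by simp),
        fun h => Or.inl ⟨rfl, h⟩⟩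
    have r2 : ∀ v m' j, (m', j) :: w <:+ v.1 → (v ∈ R ↔ m' < m ∨ m' = m ∧ v ∈ Q j) :=
      fun v m' j h => hR ▸ ⟨fun k => k.elim (fun k => absurd (k.1 ▸ h).length_le (by simp))
        fun ⟨m'', j', k1, k2⟩ => by
          obtain ⟨⟨rfl, rfl⟩, -⟩ := List.cons_eq_cons.1
            ((List.suffix_of_suffix_length_le k1 h (by simp)).eq_of_length (by simp))
          exact k2, fun k => Or.inr ⟨m', j, h, k⟩⟩
    have r3 : ∀ (m' : ℕ) (y : ℕ), y ≤ K → (m' * K + y ≤ m * K + i₀ ↔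
        m' < m ∨ m' = m ∧ y ≤ i₀) := fun m' y hy => by
      have := i₀.2
      rcases lt_trichotomy m' m with h | rfl | h
      · have := Nat.mul_le_mul_right K (Nat.succ_le_of_lt h)
        rw [Nat.succ_mul] at this
        omega
      · omega
      · have := Nat.mul_le_mul_right K (Nat.succ_le_of_lt h)
        rw [Nat.succ_mul] at this
        omega
    refine ⟨R, fun ⟨⟨w', m', i, t⟩, l⟩ he hw h => ?_, fun i => ?_⟩
    · replace h := mem_cut_ofEnds.1 h
      by_cases k : w = w'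
      · subst k
        have a1 : ∀ l, pt en (w, m', i, t) l ∈ R ↔
            m' < m ∨ m' = m ∧ (i < i₀ ∨ i = i₀ ∧ l ≤ L t) := fun l => by
          induction l with
          | zero =>
            rw [pt, r1, r3 _ _ i.2.le]
            simp only [Fin.ext_iff, Fin.lt_def]
            omega
          | succ l ih =>
            rw [pt]
            split_ifs with b1 b2
            · rw [r2 _ m' ⟨l, b1⟩ (List.suffix_refl _)]
              refine or_congr_right (and_congr_right fun b3 => ?_)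
              subst b3
              rw [Q2]
              by_cases b4 : i = i₀
              · subst b4
                simp only at b2
                simp only [b2]
                split_ifs <;> simp <;> omega
              · have := mt Fin.ext b4
                simp only [b4, Fin.lt_def]
                split_ifs <;> simp <;> omega
            · refine ih.trans (or_congr_right (and_congr_right fun b3 => or_congr_right
                (and_congr_right fun b4 => ⟨fun b5 => ?_, by omega⟩)))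
              subst b3 b4
              refine lt_of_le_of_ne b5 fun b6 => L1 t ?_
              rw [← b6, pt, dif_pos b1, if_neg b2]
            · have := le_of_ne en (L1 t)
              rw [r1, add_assoc, r3 _ _ i.2]
              simp only [Fin.lt_def]
              omega
        simp only [a1] at h
        have a2 : m' = m ∧ i = i₀ ∧ l = L t := by
          simp only [Fin.lt_def, Fin.ext_iff] at h ⊢
          omega
        obtain ⟨rfl, rfl, rfl⟩ := a2
        exact L2 t he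
      · obtain ⟨p, hp⟩ := hw
        obtain rfl | ⟨q, ⟨m'', j⟩, rfl⟩ := p.eq_nil_or_concat
        · exact k hp
        have a1 : (m'', j) :: w <:+ w' := ⟨q, by simpa using hp⟩
        rw [r2 _ _ _ (a1.trans (pt_suffix en (w', m', i, t) _)),
          r2 _ _ _ (a1.trans (pt_suffix en (w', m', i, t) _))] at h
        obtain rfl : m'' = m := by tauto
        exact Q1 j _ he a1 (mem_cut_ofEnds.2 (by tauto))
    · rw [r1, ← add_zero (i * K), r3 _ _ (Nat.zero_le K)]
      omega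

theorem fails (hK : 0 < K) (T) (h1 : T ≤s AT en) (h2 : T.toSimpleGraph.Connected) :
    ∃ S, Side (AT en) S ∧ (cut (AT en) S).Finite ∧ cut T S = cut (AT en) S := by
  obtain ⟨P, p1, p2, p3⟩ := of_reach (h2.preconnected
    ⟨([], 0), h1.vertexSet_eq ▸ mem_univ _⟩ ⟨([], K), h1.vertexSet_eq ▸ mem_univ _⟩)
  have m1 : ∀ S, cut T S ⊆ cut (AT en) S := fun _ _ ⟨x, hx, y, hy, h⟩ =>
    ⟨x, hx, y, hy, h.mono h1.le⟩
  by_contra h
  obtain ⟨d, hd⟩ := (p1.image fun e => e.1.1.length).bddAbove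
  obtain ⟨R, r1, r2⟩ := separate en hK (P := P) (d := d + 1)
    (fun e he => Nat.lt_succ_of_le (hd (mem_image_of_mem _ he))) (fun w m => by
      by_contra k
      push Not at k
      choose t ht using k
      have a1 : cut (AT en) {v | (m, en.symm t) :: w <:+ v.1} ⊆ P := fun ⟨b, l⟩ he => by
        obtain ⟨i, a, a'⟩ := cut_desc en he
        simp only [Equiv.apply_symm_apply] at a a'
        subst a
        exact ht i l a'
      refine h ⟨_, ⟨⟨(_, 0), List.suffix_refl _⟩, subset_univ _, fun a =>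
        by simpa using a (mem_univ ([], 0))⟩, p1.subset a1, (m1 _).antisymm fun e he => ?_⟩
      obtain ⟨x, hx, y, hy, a⟩ := id he
      exact ⟨x, hx, y, hy, (h1.le.isLink_iff (p2 (a1 he))).2 a⟩) (d + 1) [] (by simp) 1
  obtain ⟨e, e1, e2⟩ := p3 R (by simpa using r2 0) (by simpa using r2 1)
  exact r1 e e1 List.nil_suffix (m1 _ e2)

theorem counter {k : ℕ} (hk : 1 ≤ k) : ∃ (α β : Type) (G : Graph α β), G.Loopless ∧
    (∀ v, (G.incidenceSet v).Finite) ∧ G.vertexSet.Nontrivial ∧ EdgeConn G k ∧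
    ∀ T, T ≤s G → T.toSimpleGraph.Connected →
      ∃ S, Side G S ∧ (cut G S).Finite ∧ cut T S = cut G S :=
  ⟨_, _, AT (Fintype.equivFin (Fin k → Fin k)).symm, loopless _ _, locfin _ hk,
    ⟨([], 0), mem_univ _, ([], 1), mem_univ _, by simp⟩, conn _ hk, fails _ hk⟩

end Vale.Agent.N061.T
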