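import Mathlib

/-! # P061: flows (Gale's theorem, rounding of circulations) and Euler tours -/

namespace Vale.Agent.N061.T

open Finset

variable {I N : Type} [Fintype I] [DecidableEq I] [Fintype N] [DecidableEq N] (tl hd : I → N)

/-- the incidence matrix -/
def inc (i : I) (n : N) : ℝ := (if tl i = n then 1 else 0) - if hd i = n then 1 else 0

/-- outflow minus inflow -/
def bd (f : I → ℝ) (n : N) : ℝ := ∑ i, f i * inc tl hd i n

omit [Fintype I] [DecidableEq I] in
theorem sum_inc (r : N → ℝ) (i : I) : ∑ n, r n * inc tl hd i n = r (tl i) - r (hd i) := by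
  simp [inc, mul_sub, sum_sub_distrib]

omit [DecidableEq I] in
theorem sum_bd (r : N → ℝ) (f : I → ℝ) :
    ∑ n, r n * bd tl hd f n = ∑ i, f i * (r (tl i) - r (hd i)) := by
  simp only [bd, mul_sum, ← sum_inc tl hd r]
  rw [sum_comm]
  exact sum_congr rfl fun i _ => sum_congr rfl fun n _ => by ring

omit [DecidableEq I] [Fintype N] in
theorem bd_add (f g : I → ℝ) (t : ℝ) (n : N) :
    bd tl hd (f + t • g) n = bd tl hd f n + t * bd tl hd g n := by
  simp [bd, add_mul, sum_add_distrib, mul_sum, mul_assoc]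

omit [DecidableEq I] [Fintype N] in
theorem bd_cont (n : N) : Continuous fun f => bd tl hd f n := by
  unfold bd
  fun_prop

/-- Gale's theorem -/
theorem gale (u : I → ℝ) (hu : ∀ i, 0 ≤ u i) (b : N → ℝ) (hb : ∑ n, b n = 0)
    (h : ∀ S : Finset N, ∑ n ∈ S, b n ≤ ∑ i with tl i ∈ S ∧ hd i ∉ S, u i) :
    ∃ g : I → ℝ, (∀ i, 0 ≤ g i ∧ g i ≤ u i) ∧ ∀ n, bd tl hd g n = b n := by
  have c1 : Continuous fun g : I → ℝ => ∑ n, (bd tl hd g n - b n) ^ 2 :=
    continuous_finsetSum _ fun n _ => ((bd_cont tl hd n).sub continuous_const).pow 2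
  obtain ⟨g, hg, hm⟩ := (isCompact_Icc (a := (0 : I → ℝ)) (b := u)).exists_isMinOn
    ⟨0, le_rfl, hu⟩ c1.continuousOn
  obtain ⟨r, hr⟩ : ∃ r : N → ℝ, r = fun n => bd tl hd g n - b n := ⟨_, rfl⟩
  have key : ∀ i t, 0 ≤ g i + t → g i + t ≤ u i → 0 ≤ t * (r (tl i) - r (hd i) + t) := by
    intro i t h1 h2
    have h3 : ∑ n, (bd tl hd g n - b n) ^ 2 ≤
        ∑ n, (bd tl hd (g + t • Pi.single i 1) n - b n) ^ 2 := hm (a := g + t • Pi.single i 1) (by
      constructor <;> intro j <;> by_cases k : j = i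
      · simpa [k] using h1
      · simpa [k] using hg.1 j
      · simpa [k] using h2
      · simpa [k] using hg.2 j)
    have h4 : ∀ n, (bd tl hd (g + t • Pi.single i 1) n - b n) ^ 2 = (bd tl hd g n - b n) ^ 2 +
        2 * t * (r n * inc tl hd i n) + t ^ 2 * (inc tl hd i n * inc tl hd i n) := fun n => by
      rw [bd_add, hr, show bd tl hd (Pi.single i 1) n = inc tl hd i n by
        simp [bd, Pi.single_apply]]
      ring
    simp only [h4, sum_add_distrib, ← mul_sum, sum_inc] at h3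
    have h5 : inc tl hd i (tl i) - inc tl hd i (hd i) ≤ 2 := by
      unfold inc
      split_ifs <;> norm_num
    nlinarith [mul_le_mul_of_nonneg_left h5 (sq_nonneg t)]
  have up : ∀ i, r (tl i) < r (hd i) → g i = u i := fun i k => by
    by_contra k1
    have k2 : 0 < min (u i - g i) ((r (hd i) - r (tl i)) / 2) :=
      lt_min (sub_pos.2 (lt_of_le_of_ne (hg.2 i) k1)) (by linarith)
    have k3 := min_le_left (u i - g i) ((r (hd i) - r (tl i)) / 2)
    have k4 := min_le_right (u i - g i) ((r (hd i) - r (tl i)) / 2)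
    have k5 : 0 ≤ g i := hg.1 i
    have := key i _ (by linarith) (le_sub_iff_add_le'.1 k3)
    nlinarith
  have dn : ∀ i, r (hd i) < r (tl i) → g i = 0 := fun i k => by
    by_contra k1
    have k2 : 0 < min (g i) ((r (tl i) - r (hd i)) / 2) :=
      lt_min (lt_of_le_of_ne (hg.1 i) (Ne.symm k1)) (by linarith)
    have k3 := min_le_left (g i) ((r (tl i) - r (hd i)) / 2)
    have k4 := min_le_right (g i) ((r (tl i) - r (hd i)) / 2)
    have k5 : g i ≤ u i := hg.2 i
    have := key i (-min (g i) ((r (tl i) - r (hd i)) / 2)) (by linarith) (by linarith)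
    nlinarith
  have h1 : ∀ n, 0 ≤ r n := fun n => by
    by_contra k
    have k1 := sum_bd tl hd (fun n => if r n < 0 then 1 else 0) g
    have k2 := h (univ.filter fun n => r n < 0)
    have k3 : ∑ m with r m < 0, r m < ∑ m with r m < 0, (0 : ℝ) := sum_lt_sum_of_nonempty
      ⟨n, mem_filter.2 ⟨mem_univ _, not_le.1 k⟩⟩ fun m hm => (mem_filter.1 hm).2
    have k4 : ∑ m with r m < 0, r m = ∑ m with r m < 0, bd tl hd g m - ∑ m with r m < 0, b m := by
      rw [← sum_sub_distrib]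
      exact sum_congr rfl fun m _ => by rw [hr]
    simp only [ite_mul, one_mul, zero_mul, ← sum_filter] at k1
    rw [sum_filter _ u, sum_congr rfl (g := fun i => g i *
      ((if r (tl i) < 0 then 1 else 0) - if r (hd i) < 0 then 1 else 0)) fun i _ => by
        by_cases a1 : r (tl i) < 0 <;> by_cases a2 : r (hd i) < 0 <;> simp [a1, a2]
        · exact (up i (by linarith)).symm
        · exact dn i (by linarith)] at k2
    rw [sum_const_zero] at k3
    linarith
  have h2 : ∑ n, r n = 0 := by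
    have := sum_bd tl hd (fun _ => 1) g
    simp only [one_mul, sub_self, mul_zero, sum_const_zero] at this
    simp [hr, sum_sub_distrib, this, hb]
  exact ⟨g, fun i => ⟨hg.1 i, hg.2 i⟩, fun n => sub_eq_zero.1 (by
    simpa [hr] using (sum_eq_zero_iff_of_nonneg fun n _ => h1 n).1 h2 n (mem_univ _))⟩

/-- an arc set without leaves carries a circulation -/
theorem kernel {F : Finset I} (hF : F.Nonempty)
    (h : ∀ n, ∀ i ∈ F, inc tl hd i n ≠ 0 → ∃ j ∈ F, j ≠ i ∧ inc tl hd j n ≠ 0) :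
    ∃ d : I → ℝ, d ≠ 0 ∧ (∀ i ∉ F, d i = 0) ∧ ∀ n, bd tl hd d n = 0 := by
  classical
  obtain ⟨W, hW⟩ : ∃ W : Finset N, W = univ.filter fun n => ∃ i ∈ F, inc tl hd i n ≠ 0 := ⟨_, rfl⟩
  have h1 : #W * 2 ≤ #F * 2 := card_mul_le_card_mul' (fun i n => inc tl hd i n ≠ 0)
    (fun n hn => by
      obtain ⟨i, k1, k2⟩ := (mem_filter.1 (hW ▸ hn)).2
      obtain ⟨j, k3, k4, k5⟩ := h n i k1 k2
      exact one_lt_card.2 ⟨j, mem_filter.2 ⟨k3, k5⟩, i, mem_filter.2 ⟨k1, k2⟩, k4⟩) fun i _ =>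
    (card_le_card (t := {tl i, hd i}) fun n hn => by
      by_contra k
      simp only [mem_insert, mem_singleton, not_or] at k
      exact (mem_filter.1 hn).2 (by simp [inc, Ne.symm k.1, Ne.symm k.2])).trans card_le_two
  obtain ⟨n₀, h2⟩ : ∃ n₀, #(W.erase n₀) < #F := by
    rcases W.eq_empty_or_nonempty with k | ⟨n, k⟩
    · exact ⟨tl hF.choose, by simpa [k] using hF⟩
    · exact ⟨n, (card_erase_lt_of_mem k).trans_le (by omega)⟩
  obtain ⟨d, h3, h4⟩ := (Submodule.ne_bot_iff _).1 (LinearMap.ker_ne_bot_of_finrank_lt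
    (f := (Matrix.of fun (i : F) (n : W.erase n₀) => inc tl hd i n).vecMulLinear) (by
      rwa [Module.finrank_fintype_fun_eq_card, Module.finrank_fintype_fun_eq_card, Fintype.card_coe,
        Fintype.card_coe]))
  have h5 : ∀ n, bd tl hd (fun i => if k : i ∈ F then d ⟨i, k⟩ else 0) n =
      ∑ i : F, d i * inc tl hd i n := fun n => by
    rw [bd, ← sum_subset (subset_univ F) fun i _ k => by simp [k], ← sum_coe_sort]
    simp
  have h6 : ∀ n ≠ n₀, bd tl hd (fun i => if k : i ∈ F then d ⟨i, k⟩ else 0) n = 0 := fun n k => by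
    rw [h5]
    by_cases k1 : n ∈ W
    · exact congrFun (LinearMap.mem_ker.1 h3) ⟨n, mem_erase.2 ⟨k, k1⟩⟩
    · refine sum_eq_zero fun i _ => mul_eq_zero_of_right _ ?_
      by_contra k2
      exact k1 (hW ▸ mem_filter.2 ⟨mem_univ _, i, i.2, k2⟩)
  refine ⟨fun i => if k : i ∈ F then d ⟨i, k⟩ else 0, fun k => h4 (funext fun i => ?_),
    fun i k => dif_neg k, fun n => ?_⟩
  · simpa using congrFun k i
  · by_cases k : n = n₀
    · have := sum_bd tl hd (fun _ => 1) fun i => if k : i ∈ F then d ⟨i, k⟩ else 0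
      simp only [one_mul, sub_self, mul_zero, sum_const_zero] at this
      rwa [sum_eq_single n (fun m _ k1 => h6 m (k ▸ k1)) (by simp)] at this
    · exact h6 n k

/-- rounding of a circulation -/
theorem round (f c : I → ℝ) (hf : ∀ n, bd tl hd f n = 0) : ∃ y : I → ℤ,
    (∀ i, ⌊f i⌋ ≤ y i ∧ y i ≤ ⌈f i⌉) ∧ (∀ n, bd tl hd (fun i => y i) n = 0) ∧
    ∑ i, c i * y i ≤ ∑ i, c i * f i := by
  classical
  obtain ⟨P, hP⟩ : ∃ P : Set (I → ℝ), P = Set.Icc (fun i => (⌊f i⌋ : ℝ)) (fun i => ⌈f i⌉) ∩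
    ⋂ n, {y | bd tl hd y n = 0} := ⟨_, rfl⟩
  have c1 : IsCompact P := hP ▸ isCompact_Icc.inter_right (isClosed_iInter fun n =>
    isClosed_eq (bd_cont tl hd n) continuous_const)
  have c2 : Continuous fun y : I → ℝ => ∑ i, c i * y i := by fun_prop
  have f1 : f ∈ P := hP ▸ ⟨⟨fun i => Int.floor_le _, fun i => Int.le_ceil _⟩, Set.mem_iInter.2 hf⟩
  obtain ⟨z, hz, hm⟩ := c1.exists_isMinOn ⟨f, f1⟩ c2.continuousOn
  obtain ⟨y, ⟨hy, h1⟩, h2⟩ := (c1.inter_right (isClosed_le c2 (continuous_const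
    (y := ∑ i, c i * z i)))).exists_isMaxOn ⟨z, hz, le_refl (∑ i, c i * z i)⟩ (f := fun y => ∑ i, y i ^ 2)
    (by fun_prop)
  have y1 := hP ▸ hy
  have h3 : ∀ i, ∃ m : ℤ, y i = m := by
    by_contra k
    obtain ⟨d, k1, k2, k3⟩ := kernel tl hd (F := univ.filter fun i => ¬ ∃ m : ℤ, y i = m)
      (by simpa [Finset.Nonempty] using k) fun n i hi hn => by
        by_contra k4
        have k5 : ∀ j ∈ univ.erase i, ∃ m : ℤ, y j * inc tl hd j n = m := fun j hj => by
          by_cases a : ∃ m : ℤ, y j = m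
          · obtain ⟨m, a⟩ := a
            exact ⟨m * ((if tl j = n then 1 else 0) - if hd j = n then 1 else 0), by simp [a, inc]⟩
          · refine ⟨0, ?_⟩
            by_contra a1
            exact k4 ⟨j, mem_filter.2 ⟨mem_univ _, a⟩, (mem_erase.1 hj).1, fun a2 => a1 (by simp [a2])⟩
        choose! m hm using k5
        have k6 : bd tl hd y n = 0 := Set.mem_iInter.1 y1.2 n
        rw [bd, ← add_sum_erase _ _ (mem_univ i), sum_congr rfl hm, ← Int.cast_sum] at k6
        refine (mem_filter.1 hi).2 ?_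
        unfold inc at k6 hn
        split_ifs at k6 hn <;> simp at hn
        · exact ⟨-∑ j ∈ univ.erase i, m j, by rw [Int.cast_neg]; linarith⟩
        · exact ⟨∑ j ∈ univ.erase i, m j, by linarith⟩
    have k4 : ∀ᶠ t in nhds (0 : ℝ), ∀ i, (⌊f i⌋ : ℝ) ≤ y i + t * d i ∧ y i + t * d i ≤ ⌈f i⌉ :=
      Filter.eventually_all.2 fun i => by
        by_cases a : ∃ m : ℤ, y i = m
        · exact Filter.Eventually.of_forall fun t => by
            simpa [k2 i (by simpa using a)] using And.intro (y1.1.1 i) (y1.1.2 i)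
        · have a1 : ContinuousAt (fun t : ℝ => y i + t * d i) 0 := by fun_prop
          exact ((continuousAt_const.eventually_lt a1 (by
            simpa using lt_of_le_of_ne (y1.1.1 i) fun e => a ⟨_, e.symm⟩)).and
            (a1.eventually_lt continuousAt_const (by
            simpa using lt_of_le_of_ne (y1.1.2 i) fun e => a ⟨_, e⟩))).mono
            fun t ht => ⟨ht.1.le, ht.2.le⟩
    obtain ⟨δ, k5, k6⟩ := Metric.eventually_nhds_iff.1 k4
    have k7 : ∀ t : ℝ, |t| < δ → y + t • d ∈ P := fun t ht => hP ▸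
      ⟨⟨fun i => (k6 (by simpa using ht) i).1, fun i => (k6 (by simpa using ht) i).2⟩,
        Set.mem_iInter.2 fun n => by
          rw [Set.mem_ofPred_eq, bd_add, k3, show bd tl hd y n = 0 from Set.mem_iInter.1 y1.2 n]
          simp⟩
    have k8 : ∀ t : ℝ, ∑ i, c i * (y + t • d) i = ∑ i, c i * y i + t * ∑ i, c i * d i := fun t => by
      simp [mul_add, sum_add_distrib, mul_sum, mul_left_comm]
    have k9 : ∀ t : ℝ, ∑ i, (y + t • d) i ^ 2 =
        ∑ i, y i ^ 2 + 2 * t * ∑ i, y i * d i + t ^ 2 * ∑ i, d i ^ 2 := fun t => by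
      simp only [mul_sum, ← sum_add_distrib]
      exact sum_congr rfl fun i _ => by simp; ring
    have p1 := k7 (δ / 2) (by rw [abs_of_pos] <;> linarith)
    have p2 := k7 (-(δ / 2)) (by rw [abs_neg, abs_of_pos] <;> linarith)
    have q1 : ∑ i, c i * z i ≤ ∑ i, c i * (y + (δ / 2) • d) i := hm p1
    have q2 : ∑ i, c i * z i ≤ ∑ i, c i * (y + (-(δ / 2)) • d) i := hm p2
    have q3 : ∑ i, c i * y i ≤ ∑ i, c i * z i := h1
    have q4 : ∑ i, c i * z i ≤ ∑ i, c i * y i := hm hy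
    rw [k8] at q1 q2
    have r1 : ∑ i, (y + (δ / 2) • d) i ^ 2 ≤ ∑ i, y i ^ 2 :=
      h2 ⟨p1, by rw [Set.mem_ofPred_eq, k8]; linarith⟩
    have r2 : ∑ i, (y + (-(δ / 2)) • d) i ^ 2 ≤ ∑ i, y i ^ 2 :=
      h2 ⟨p2, by rw [Set.mem_ofPred_eq, k8]; linarith⟩
    rw [k9] at r1 r2
    have s1 : ∑ i, d i ^ 2 = 0 := le_antisymm (le_of_mul_le_mul_left (a := (δ / 2) ^ 2)
      (by nlinarith) (by positivity)) (sum_nonneg fun i _ => sq_nonneg _)
    exact k1 (funext fun i => pow_eq_zero_iff two_ne_zero |>.1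
      ((sum_eq_zero_iff_of_nonneg fun i _ => sq_nonneg _).1 s1 i (mem_univ _)))
  choose m h4 using h3
  obtain rfl : y = fun i => (m i : ℝ) := funext h4
  exact ⟨m, fun i => ⟨Int.cast_le.1 (y1.1.1 i), Int.cast_le.1 (y1.1.2 i)⟩,
    fun n => Set.mem_iInter.1 y1.2 n, le_trans h1 (hm f1)⟩

omit [Fintype N] in
/-- Euler tours: the arcs of a connected balanced digraph can be arranged in one cycle -/
theorem euler (a₀ : I) (hb : ∀ n, #{i | tl i = n} = #{i | hd i = n})
    (hc : ∀ S : Set N, (∀ i, hd i ∈ S → tl i ∈ S) → hd a₀ ∈ S → ∀ i, hd i ∈ S) :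
    ∃ σ : Equiv.Perm I, (∀ i, tl (σ i) = hd i) ∧ ∀ i, σ.SameCycle a₀ i := by
  classical
  have h0 : ∃ σ : Equiv.Perm I, ∀ i, tl (σ i) = hd i :=
    ⟨Equiv.ofFiberEquiv (f := hd) (g := tl) fun n => Fintype.equivOfCardEq (by
      simpa [Fintype.card_subtype] using (hb n).symm), fun i => Equiv.ofFiberEquiv_map _ i⟩
  obtain ⟨σ, h1, h2⟩ := exists_max_image (univ.filter fun σ : Equiv.Perm I => ∀ i, tl (σ i) = hd i)
    (fun σ => #{i | σ.SameCycle a₀ i}) (h0.imp fun σ h => mem_filter.2 ⟨mem_univ _, h⟩)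
  replace h1 := (mem_filter.1 h1).2
  refine ⟨σ, h1, ?_⟩
  have h3 : ∀ a a', σ.SameCycle a₀ a → hd a = hd a' → σ.SameCycle a₀ a' := fun a a' k1 k2 => by
    by_contra k3
    obtain ⟨τ, hτ⟩ : ∃ τ, τ = σ * Equiv.swap a a' := ⟨_, rfl⟩
    have t1 : τ a = σ a' := by simp [hτ]
    have t2 : τ a' = σ a := by simp [hτ]
    have t3 : ∀ b, b ≠ a → b ≠ a' → τ b = σ b := fun b b1 b2 => by
      simp [hτ, Equiv.swap_apply_of_ne_of_ne b1 b2]
    have cl : ∀ X : Set I, (∀ b ∈ X, σ b ∈ X) → ∀ b ∈ X, ∀ c, σ.SameCycle b c → c ∈ X :=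
      fun X hX b hb c hc => by
        obtain ⟨n, rfl⟩ := hc.exists_nat_pow_eq
        clear hc
        induction n with
        | zero => exact hb
        | succ n ih => exact pow_succ' σ n ▸ hX _ ih
    have t4 : τ.SameCycle a a' := by
      by_contra k4
      refine k4 (cl {b | τ.SameCycle a b ∧ σ.SameCycle a' b} (fun b hb => ⟨?_, hb.2.apply_right⟩)
        (σ a') ⟨t1 ▸ (Equiv.Perm.SameCycle.refl τ a).apply_right,
          (Equiv.Perm.SameCycle.refl σ a').apply_right⟩ a'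
        (Equiv.Perm.SameCycle.refl σ a').apply_left).1
      exact t3 b (fun e => k3 (k1.trans (e ▸ hb.2).symm)) (fun e => k4 (e ▸ hb.1)) ▸
        hb.1.apply_right
    have t5 : ∀ c, σ.SameCycle a c → τ.SameCycle a c :=
      cl {b | τ.SameCycle a b} (fun b hb => by
        by_cases b1 : b = a
        · rw [b1, ← t2]
          exact t4.apply_right
        by_cases b2 : b = a'
        · rw [b2, ← t1]
          exact (Equiv.Perm.SameCycle.refl τ a).apply_right
        · rw [← t3 b b1 b2]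
          exact Equiv.Perm.SameCycle.apply_right hb) a (.refl τ a)
    refine (h2 τ (mem_filter.2 ⟨mem_univ _, fun i => ?_⟩)).not_gt (card_lt_card ⟨fun c hc =>
      mem_filter.2 ⟨mem_univ _, (t5 _ k1.symm).symm.trans (t5 _ (k1.symm.trans
        (mem_filter.1 hc).2))⟩, fun k => k3 (mem_filter.1 (k (mem_filter.2 ⟨mem_univ _,
          (t5 _ k1.symm).symm.trans t4⟩))).2⟩)
    by_cases b1 : i = a
    · rw [b1, t1, h1, k2]
    by_cases b2 : i = a'
    · rw [b2, t2, h1, k2]
    · rw [t3 i b1 b2, h1]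
  intro i
  obtain ⟨a, k1, k2⟩ := hc {n | ∃ a, σ.SameCycle a₀ a ∧ hd a = n} (fun j ⟨a, k1, k2⟩ =>
    ⟨σ.symm j, (h3 a j k1 k2).symm_apply_right, by rw [← h1, Equiv.apply_symm_apply]⟩)
    ⟨a₀, .refl σ a₀, rfl⟩ i
  exact h3 a i k1 k2

end Vale.Agent.N061.T
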