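import Vale.Agent.N061.Main
import Vale.Agent.N061.T.Defs

/-! # P061: thin forests which meet all finite cuts, in graphs of any cardinality -/

namespace Vale.Agent.N061.T

open Set

theorem tree_cut {V E : Type} [Fintype V] [DecidableEq V] [Fintype E] [DecidableEq E]
    {ends : E → Sym2 V} {T : Finset E} (h : P061Z.IsSpanningTree ends T) {S : Finset V}
    (h1 : S.Nonempty) (h2 : S ≠ Finset.univ) : (P061Z.cut ends T S).Nonempty := by
  obtain ⟨a, ha⟩ := h1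
  obtain ⟨b, hb⟩ : ∃ b, b ∉ S := not_forall.1 fun k => h2 (Finset.eq_univ_of_forall k)
  obtain ⟨p⟩ := h.2.2.connected.preconnected a b
  obtain ⟨d, -, h3, h4⟩ := p.exists_boundary_dart (S : Set V) ha hb
  obtain ⟨⟨e, he, h5⟩, -⟩ := (SimpleGraph.fromEdgeSet_adj _).1 d.adj
  exact ⟨e, mem_cut.2 ⟨he, _, h3, _, h4, h5⟩⟩

variable {α β : Type*} {G : Graph α β} {k : ℕ}

/-- Finitely many finite cuts: contract everything else. -/
theorem core (hk : 1 ≤ k) (hG : EdgeConn G k) (hV : G.vertexSet.Nonempty) {n : ℕ}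
    (S : Fin n → Set α) (hS : ∀ i, Side G (S i)) (hf : ∀ i, (cut G (S i)).Finite) :
    ∃ T : Set β, ∀ i, (T ∩ cut G (S i)).Nonempty ∧
      ((T ∩ cut G (S i)).ncard : ℝ) ≤ 10 ^ 94 / k * (cut G (S i)).ncard := by
  classical
  let π : α → Fin n → Prop := fun x i => x ∈ S i
  let V := {p : Fin n → Prop // p ∈ π '' G.vertexSet}
  obtain ⟨m, ε, hε⟩ := (finite_iUnion hf).fin_embedding
  have h0 : ∀ j, ∃ x y, G.IsLink (ε j) x y := fun j => by
    obtain ⟨i, x, -, y, -, h⟩ := mem_iUnion.1 (hε ▸ mem_range_self j : ε j ∈ ⋃ i, cut G (S i))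
    exact ⟨x, y, h⟩
  choose x y hxy using h0
  let q : ∀ z ∈ G.vertexSet, V := fun z hz => ⟨π z, z, hz, rfl⟩
  let ends : Fin m → Sym2 V := fun j => s(q _ (hxy j).left_mem, q _ (hxy j).right_mem)
  let U : Finset V → Set α := fun Q => {z | ∃ hz, q z hz ∈ Q}
  have key : ∀ (T : Finset (Fin m)) (Q : Finset V),
      ε '' (P061Z.cut ends T Q) = ε '' T ∩ cut G (U Q) := fun T Q => by
    ext e
    constructor
    · rintro ⟨j, hj, rfl⟩
      obtain ⟨h1, a, ha, b, hb, h2⟩ := mem_cut.1 hj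
      refine ⟨⟨j, h1, rfl⟩, ?_⟩
      rcases Sym2.eq_iff.1 h2 with ⟨h3, h4⟩ | ⟨h3, h4⟩
      · exact ⟨x j, ⟨(hxy j).left_mem, h3 ▸ ha⟩, y j, fun ⟨_, h⟩ => hb (h4 ▸ h), hxy j⟩
      · exact ⟨y j, ⟨(hxy j).right_mem, h4 ▸ ha⟩, x j, fun ⟨_, h⟩ => hb (h3 ▸ h), (hxy j).symm⟩
    · rintro ⟨⟨j, h1, rfl⟩, a, ⟨ha, h2⟩, b, hb, h3⟩
      refine ⟨j, mem_cut.2 ⟨h1, _, h2, q b h3.right_mem, fun h => hb ⟨h3.right_mem, h⟩, ?_⟩, rfl⟩
      rcases h3.eq_and_eq_or_eq_and_eq (hxy j) with ⟨rfl, rfl⟩ | ⟨rfl, rfl⟩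
      · rfl
      · exact Sym2.eq_swap
  have full : ∀ Q : Finset V, ε '' (Finset.univ : Finset (Fin m)) ∩ cut G (U Q) = cut G (U Q) :=
    fun Q => inter_eq_right.2 fun e ⟨a, ⟨ha, h2⟩, b, hb, h3⟩ => by
      rw [Finset.coe_univ, image_univ, hε]
      by_contra h4
      refine hb ⟨h3.right_mem, ?_⟩
      convert h2 using 1
      refine Subtype.ext (funext fun i => propext ⟨fun h => ?_, fun h => ?_⟩) <;> by_contra h5
      · exact h4 (mem_iUnion.2 ⟨i, b, h, a, h5, h3.symm⟩)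
      · exact h4 (mem_iUnion.2 ⟨i, a, h, b, h5, h3⟩)
  have cd : ∀ A : Finset (Fin m), (ε '' A).ncard = A.card := fun A => by
    rw [ncard_image_of_injective _ ε.injective, ncard_coe_finset]
  have : Nonempty V := ⟨q _ hV.some_mem⟩
  obtain ⟨T, h1, h2⟩ := thin ends hk fun Q ⟨⟨_, a, ha, rfl⟩, h3⟩ h4 => by
    obtain ⟨⟨_, b, hb, rfl⟩, h5⟩ : ∃ b, b ∉ Q :=
      not_forall.1 fun k => h4 (Finset.eq_univ_of_forall k)
    have := hG (U Q) ⟨⟨a, ha, h3⟩, fun z hz => hz.1, fun h => h5 (h hb).2⟩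
    rw [← full, ← key, (ε.injective.injOn).encard_image, encard_coe_eq_coe_finsetCard] at this
    exact_mod_cast this
  refine ⟨ε '' T, fun i => ?_⟩
  have h3 : U (Finset.univ.filter fun p => p.1 i) = S i := by
    ext z
    exact ⟨fun ⟨_, h⟩ => (Finset.mem_filter.1 h).2,
      fun h => ⟨(hS i).2.1 h, Finset.mem_filter.2 ⟨Finset.mem_univ _, h⟩⟩⟩
  rw [← h3, ← key]
  refine ⟨(Finset.coe_nonempty.2 (tree_cut h1 ?_ fun h => ?_)).image _, ?_⟩
  · obtain ⟨a, ha⟩ := (hS i).1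
    exact ⟨q a ((hS i).2.1 ha), Finset.mem_filter.2 ⟨Finset.mem_univ _, ha⟩⟩
  · exact (hS i).2.2 fun z hz => h3 ▸ (⟨hz, by rw [h]; exact Finset.mem_univ _⟩ :
      z ∈ U (Finset.univ.filter fun p => p.1 i))
  · rw [← full, ← key, cd, cd]
    exact h2 _

/-- All finite cuts, by compactness. -/
theorem semi (hk : 1 ≤ k) (hG : EdgeConn G k) : ∃ T : Set β, ∀ S, Side G S → (cut G S).Finite →
    (T ∩ cut G S).Nonempty ∧ ((T ∩ cut G S).ncard : ℝ) ≤ 10 ^ 94 / k * (cut G S).ncard := by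
  classical
  rcases G.vertexSet.eq_empty_or_nonempty with hV | hV
  · exact ⟨∅, fun S h _ => absurd (h.1.mono h.2.1) (by simp [hV])⟩
  obtain ⟨f, -, hf⟩ := (isCompact_univ (X := β → Bool)).inter_iInter_nonempty
    (fun S : {S // Side G S ∧ (cut G S).Finite} => {f | ({e | f e} ∩ cut G S).Nonempty ∧
      (({e | f e} ∩ cut G S).ncard : ℝ) ≤ 10 ^ 94 / k * (cut G S).ncard}) (fun S => by
      have := S.2.2.to_subtype
      have h1 : Continuous fun (f : β → Bool) (e : cut G S) => f e := by fun_prop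
      convert (isClosed_discrete ((fun (f : β → Bool) (e : cut G S) => f e) ''
        {f | ({e | f e} ∩ cut G S).Nonempty ∧ (({e | f e} ∩ cut G S).ncard : ℝ) ≤
          10 ^ 94 / k * (cut G S).ncard})).preimage h1 using 1
      refine (subset_preimage_image _ _).antisymm fun f ⟨g, h2, h3⟩ => ?_
      have : {e | f e} ∩ cut G S = {e | g e} ∩ cut G S := by
        ext e
        exact and_congr_left fun h => by
          rw [mem_ofPred_eq, mem_ofPred_eq, show g e = f e from congrFun h3 ⟨e, h⟩]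
      rwa [mem_ofPred_eq, this]) fun u => by
      obtain ⟨T, hT⟩ := core hk hG hV (fun i => (u.equivFin.symm i).1.1)
        (fun i => (u.equivFin.symm i).1.2.1) fun i => (u.equivFin.symm i).1.2.2
      refine ⟨fun e => decide (e ∈ T), mem_univ _, mem_iInter₂.2 fun S hS => ?_⟩
      simpa using hT (u.equivFin ⟨S, hS⟩)
  exact ⟨_, fun S h1 h2 => mem_iInter.1 hf ⟨S, h1, h2⟩⟩

theorem cut_restrict (T : Set β) (S : Set α) : cut (G.restrict T) S = T ∩ cut G S := by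
  ext e
  exact ⟨fun ⟨x, hx, y, hy, h⟩ => ⟨h.1, x, hx, y, hy, h.2⟩,
    fun ⟨h1, x, hx, y, hy, h⟩ => ⟨x, hx, y, hy, h1, h⟩⟩

theorem cut_mono' {T : Graph α β} (h : T ≤ G) (S : Set α) : cut T S ⊆ cut G S :=
  fun _ ⟨x, hx, y, hy, h1⟩ => ⟨x, hx, y, hy, h1.mono h⟩

/-- A graph in which every edge is a cut is a forest. -/
theorem forest {T : Graph α β} (h : ∀ e ∈ T.edgeSet, ∃ S, cut T S = {e}) :
    T.Simple ∧ T.toSimpleGraph.IsAcyclic := by
  have h1 : ∀ {e x y}, T.IsLink e x y → ∃ S, cut T S = {e} ∧ x ∈ S ∧ y ∉ S := fun {e x y} he => by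
    obtain ⟨S, hS⟩ := h e he.edge_mem
    obtain ⟨a, ha, b, hb, h2⟩ : e ∈ cut T S := hS ▸ mem_singleton e
    rcases h2.eq_and_eq_or_eq_and_eq he with ⟨rfl, rfl⟩ | ⟨rfl, rfl⟩
    · exact ⟨S, hS, ha, hb⟩
    · refine ⟨Sᶜ, hS ▸ ?_, hb, fun k => k ha⟩
      ext f
      exact ⟨fun ⟨u, hu, v, hv, k⟩ => ⟨v, not_not.1 hv, u, hu, k.symm⟩,
        fun ⟨u, hu, v, hv, k⟩ => ⟨v, hv, u, not_not.2 hu, k.symm⟩⟩
  refine ⟨{ not_isLoopAt := fun e x he => ?_, eq_of_isLink := fun e f x y he hf => ?_ },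
    SimpleGraph.isAcyclic_iff_forall_adj_isBridge.2 fun u v ⟨_, e, he⟩ =>
      SimpleGraph.isBridge_iff.2 fun ⟨p⟩ => ?_⟩
  · obtain ⟨S, -, h2, h3⟩ := h1 he
    exact h3 h2
  · obtain ⟨S, h2, h3, h4⟩ := h1 he
    exact (mem_singleton_iff.1 (h2 ▸ (⟨x, h3, y, h4, hf⟩ : f ∈ cut T S))).symm
  · obtain ⟨S, h2, h3, h4⟩ := h1 he
    obtain ⟨d, -, h5, h6⟩ := p.exists_boundary_dart (Subtype.val ⁻¹' S) h3 h4
    obtain ⟨⟨-, f, hf⟩, h7⟩ := SimpleGraph.deleteEdges_adj.1 d.adj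
    obtain rfl : f = e := mem_singleton_iff.1 (h2 ▸ (⟨_, h5, _, h6, hf⟩ : f ∈ cut T S))
    refine h7 (mem_singleton_iff.2 ?_)
    rcases hf.eq_and_eq_or_eq_and_eq he with ⟨k1, k2⟩ | ⟨k1, k2⟩
    · rw [Subtype.ext k1, Subtype.ext k2]
    · rw [Subtype.ext k1, Subtype.ext k2, Sym2.eq_swap]

theorem infinite_thin (hk : 1 ≤ k) (hG : EdgeConn G k) : ∃ T : Graph α β, T ≤s G ∧ T.Simple ∧
    T.toSimpleGraph.IsAcyclic ∧ Thin (10 ^ 94 / k) T G ∧
    (∀ S, Side G S → (cut G S).Finite → (cut T S).Nonempty) ∧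
    ∀ e ∈ T.edgeSet, ∃ S, Side G S ∧ (cut G S).Finite ∧ cut T S = {e} := by
  obtain ⟨T₀, h0⟩ := semi hk hG
  obtain ⟨T, h1, h2⟩ := zorn_superset_nonempty
    {T : Set β | ∀ S, Side G S → (cut G S).Finite → (T ∩ cut G S).Nonempty}
    (fun c hc hch hne => ⟨⋂₀ c, fun S k1 k2 => by
      obtain ⟨A, hA, hm⟩ := (wellFounded_lt.onFun (f := fun A => (A ∩ cut G S).ncard)).has_min c hne
      refine (hc hA S k1 k2).mono fun e he => ⟨fun B hB => ?_, he.2⟩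
      rcases hch.total hA hB with h | h
      · exact h he.1
      · exact (eq_of_subset_of_ncard_le (inter_subset_inter_left _ h) (not_lt.1 (hm B hB))
          (k2.inter_of_right _) ▸ he : e ∈ B ∩ cut G S).1,
      fun _ h => sInter_subset_of_mem h⟩) T₀ fun S k1 k2 => (h0 S k1 k2).1
  have h3 : ∀ e ∈ (G.restrict T).edgeSet,
      ∃ S, Side G S ∧ (cut G S).Finite ∧ cut (G.restrict T) S = {e} := fun e he => by
    by_contra h
    refine (h2.le_of_le (y := T \ {e}) (fun S k1 k2 => ?_) sdiff_subset he.2).2 rfl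
    by_contra k3
    refine h ⟨S, k1, k2, ?_⟩
    rw [cut_restrict]
    refine ((h2.prop S k1 k2).subset_singleton_iff.1 fun f hf => ?_)
    by_contra k4
    exact k3 ⟨f, ⟨hf.1, k4⟩, hf.2⟩
  obtain ⟨h4, h5⟩ := forest fun e he => (h3 e he).imp fun S h => h.2.2
  refine ⟨G.restrict T, ⟨Graph.restrict_le, rfl⟩, h4, h5, fun S k1 k2 => ?_,
    fun S k1 k2 => cut_restrict T S ▸ h2.prop S k1 k2, h3⟩
  rw [cut_restrict]
  exact le_trans (Nat.cast_le.2 (ncard_le_ncard (inter_subset_inter_left _ h1)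
    (k2.inter_of_right _))) (h0 S k1 k2).2

theorem connected_of_cuts {T : Graph α β} (hV : T.vertexSet.Nonempty)
    (h : ∀ S, Side T S → (cut T S).Nonempty) : T.toSimpleGraph.Connected := by
  have := hV.to_subtype
  refine ⟨fun a b => ?_⟩
  by_contra hab
  obtain ⟨e, _, ⟨x, hx, rfl⟩, y, hy, he⟩ := h (Subtype.val '' {c | T.toSimpleGraph.Reachable a c})
    ⟨⟨a, a, SimpleGraph.Reachable.refl a, rfl⟩, fun _ ⟨c, _, k⟩ => k ▸ c.2, fun k => by
      obtain ⟨c, k1, k2⟩ := k b.2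
      exact hab (Subtype.ext k2 ▸ k1)⟩
  exact hy ⟨⟨y, he.right_mem⟩, SimpleGraph.Reachable.trans hx (SimpleGraph.Adj.reachable
    ⟨fun k => hy ⟨x, hx, congrArg Subtype.val k⟩, e, he⟩), rfl⟩

theorem finite_thin (hk : 1 ≤ k) (hE : G.edgeSet.Finite) (hV : G.vertexSet.Nonempty)
    (hG : EdgeConn G k) : ∃ T, SpanningTree T G ∧ Thin (10 ^ 94 / k) T G := by
  obtain ⟨T, h1, h2, h3, h4, h5, -⟩ := infinite_thin hk hG
  refine ⟨T, ⟨h1, h2, connected_of_cuts (h1.vertexSet_eq ▸ hV) fun S hS => h5 S ?_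
    (hE.subset fun _ ⟨_, _, _, _, k⟩ => k.edge_mem), h3⟩, h4⟩
  rwa [Side, ← h1.vertexSet_eq]

end Vale.Agent.N061.T
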