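import Vale.Agent.N061.T.Inf
import Vale.Agent.N061.T.Flow

/-! # P061: from thin trees to closed walks and tours in digraphs -/

namespace Vale.Agent.N061.T

open Finset

theorem sum_bd_set {I N : Type} [Fintype I] [Fintype N] [DecidableEq N] (tl hd : I → N)
    (f : I → ℝ) (S : Finset N) : ∑ n ∈ S, bd tl hd f n =
      ∑ i with tl i ∈ S ∧ hd i ∉ S, f i - ∑ i with tl i ∉ S ∧ hd i ∈ S, f i := by
  have := sum_bd tl hd (fun n => if n ∈ S then 1 else 0) f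
  simp only [ite_mul, one_mul, zero_mul, ← sum_filter, filter_mem_eq_inter, univ_inter] at this
  rw [this, sum_filter, sum_filter, ← sum_sub_distrib]
  refine sum_congr rfl fun i _ => ?_
  by_cases a1 : tl i ∈ S <;> by_cases a2 : hd i ∈ S <;> simp [a1, a2]

variable {V : Type} [Fintype V] [DecidableEq V]

theorem sum_ite_fst {R : Type} [AddCommMonoid R] (f : V → V → R) (n : V) :
    (∑ a, ∑ b, if a = n then f a b else 0) = ∑ u, f n u := by
  rw [sum_comm]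
  simp

theorem bd_prod (f : V × V → ℝ) (n : V) :
    bd Prod.fst Prod.snd f n = ∑ u, f (n, u) - ∑ u, f (u, n) := by
  simp [bd, inc, mul_sub, sum_sub_distrib, Fintype.sum_prod_type, sum_ite_fst]

theorem sum_cut (f : V × V → ℝ) (A : Finset (V × V)) (S : Finset V) :
    ∑ e ∈ P061Z.cut (fun e : V × V => s(e.1, e.2)) A S, f e =
      ∑ e ∈ A with e.1 ∈ S ∧ e.2 ∉ S, f e + ∑ e ∈ A with e.1 ∉ S ∧ e.2 ∈ S, f e := by
  rw [P061Z.Final.cut_eq (u := Prod.fst) (v := Prod.snd) fun _ => rfl, P061Z.cutE, sum_filter,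
    sum_filter, sum_filter, ← sum_add_distrib]
  refine sum_congr rfl fun i _ => ?_
  by_cases a1 : i.1 ∈ S <;> by_cases a2 : i.2 ∈ S <;> simp [P061Z.Sep, a1, a2]

theorem sum_out (x : V → V → ℝ) (S : Finset V) :
    ∑ u ∈ S, ∑ v ∈ Sᶜ, x u v = ∑ e : V × V with e.1 ∈ S ∧ e.2 ∉ S, x e.1 e.2 := by
  rw [← sum_product']
  exact sum_congr (by ext; simp) fun _ _ => rfl

variable [Nontrivial V] {x : V → V → ℝ} (hx : ∀ u v, 0 ≤ x u v)
  (hb : ∀ v, ∑ u, x v u = ∑ u, x u v)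
  (hc : ∀ S : Finset V, S.Nonempty → S ≠ univ → 1 ≤ ∑ u ∈ S, ∑ v ∈ Sᶜ, x u v)
  {c : V → V → ℝ} (c0 : ∀ u v, 0 ≤ c u v)

include hx hc in
theorem deg_ge (v : V) : 1 ≤ ∑ e : V × V with e.1 ∈ ({v} : Finset V) ∧ e.2 ∉ ({v} : Finset V),
    x e.1 e.2 ∧ ∑ e : V × V with e.1 ∈ ({v} : Finset V) ∧ e.2 ∉ ({v} : Finset V), x e.1 e.2 ≤
      ∑ u, x v u := by
  rw [← sum_out]
  refine ⟨hc _ (singleton_nonempty v) fun h => ?_, ?_⟩
  · obtain ⟨w, hw⟩ := exists_ne v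
    exact hw (mem_singleton.1 (h ▸ mem_univ w))
  · rw [sum_singleton]
    exact sum_le_sum_of_subset_of_nonneg (subset_univ _) fun u _ _ => hx v u

include hx hb hc c0 in
/-- a connected integral circulation -/
theorem circ : ∃ y : V × V → ℕ, (∀ e, y e ≠ 0 → 0 < x e.1 e.2) ∧
    (∀ v, ∑ u, y (v, u) = ∑ u, y (u, v)) ∧ (∀ S : Finset V, S.Nonempty → S ≠ univ →
      ∃ e, y e ≠ 0 ∧ ¬ (e.1 ∈ S ↔ e.2 ∈ S)) ∧
    (∀ v, (∑ u, y (v, u) : ℕ) ≤ 3 * 10 ^ 94 * ∑ u, x v u) ∧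
    ∑ e, c e.1 e.2 * y e ≤ 2 * 10 ^ 94 * ∑ e : V × V, c e.1 e.2 * x e.1 e.2 := by
  have h1 : ∀ S : Finset V, ∑ e ∈ P061Z.cut (fun e : V × V => s(e.1, e.2)) univ S, x e.1 e.2 =
      2 * ∑ e : V × V with e.1 ∈ S ∧ e.2 ∉ S, x e.1 e.2 := fun S => by
    have := sum_bd_set Prod.fst Prod.snd (fun e : V × V => x e.1 e.2) S
    rw [sum_eq_zero fun n _ => by rw [bd_prod, hb, sub_self]] at this
    rw [sum_cut]
    linarith
  obtain ⟨N, T, N0, t1, t2, t3⟩ := frac (fun e : V × V => s(e.1, e.2)) one_pos le_rfl two_pos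
    (fun e => x e.1 e.2) (fun e => hx _ _) (Or.inl fun S a b => by
      rw [h1, ← sum_out]
      linarith [hc S a b])
  obtain ⟨i, t3⟩ := t3 (fun e => c e.1 e.2) fun e => c0 _ _
  obtain ⟨t0, t1⟩ := t1 i
  replace t2 : ∀ e ∈ T i, 0 < x e.1 e.2 := fun e he => by
    have k1 : (0 : ℝ) < (#{i | e ∈ T i} : ℝ) / N := div_pos (Nat.cast_pos.2
      (card_pos.2 ⟨i, mem_filter.2 ⟨mem_univ _, he⟩⟩)) (Nat.cast_pos.2 N0)
    linarith [t2 e]
  obtain ⟨t, ht⟩ : ∃ t : V × V → ℝ, t = fun e => if e ∈ T i then 1 else 0 := ⟨_, rfl⟩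
  have t4 : ∀ e, 0 ≤ t e ∧ t e ≤ 1 := fun e => by
    rw [ht]
    dsimp only
    split_ifs <;> norm_num
  replace t1 : ∀ S : Finset V, ∑ e with e.1 ∈ S ∧ e.2 ∉ S, t e + ∑ e with e.1 ∉ S ∧ e.2 ∈ S, t e ≤
      10 ^ 94 * ∑ e : V × V with e.1 ∈ S ∧ e.2 ∉ S, x e.1 e.2 := fun S => by
    have k1 := t1 S
    rw [h1, card_eq_sum_ones, Nat.cast_sum, Nat.cast_one, sum_cut] at k1
    simp only [ht, ← sum_filter, filter_comm _ (· ∈ T i), filter_mem_eq_inter, univ_inter]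
    linarith
  obtain ⟨g, g1, g2⟩ := gale Prod.fst Prod.snd (fun e : V × V => 10 ^ 94 * x e.1 e.2)
    (fun e => by have := hx e.1 e.2; positivity) (fun n => -bd Prod.fst Prod.snd t n) (by
      rw [sum_neg_distrib, sum_bd_set]
      simp) fun S => by
      rw [sum_neg_distrib, sum_bd_set, ← mul_sum]
      linarith [t1 S, sum_nonneg fun e (_ : e ∈ univ.filter fun e : V × V => e.1 ∈ S ∧ e.2 ∉ S) =>
        (t4 e).1]
  obtain ⟨y, y1, y2, y3⟩ := round (I := (V × V) ⊕ V) (N := V ⊕ V)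
    (Sum.elim (fun e => .inl e.1) .inr) (Sum.elim (fun e => .inr e.2) .inl)
    (Sum.elim (fun e => t e + g e) fun v => ∑ u, (t (v, u) + g (v, u)))
    (Sum.elim (fun e => c e.1 e.2) 0) (by
      rintro (n | n)
      · simp [bd, inc, Fintype.sum_prod_type, sum_ite_fst]
      · have := g2 n
        rw [bd_prod, bd_prod] at this
        simp [bd, inc, Fintype.sum_prod_type, sum_add_distrib]
        linarith)
  have y4 : ∀ e, 0 ≤ y (.inl e) := fun e =>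
    (Int.floor_nonneg.2 (add_nonneg (t4 e).1 (g1 e).1)).trans (y1 (.inl e)).1
  obtain ⟨z, hz⟩ : ∃ z : V × V → ℕ, ∀ e, (z e : ℤ) = y (.inl e) :=
    ⟨fun e => (y (.inl e)).toNat, fun e => Int.toNat_of_nonneg (y4 e)⟩
  have z1 : ∀ e, (y (.inl e) : ℝ) = z e := fun e => by rw [← hz, Int.cast_natCast]
  have z2 : ∀ v, ∑ u, (z (v, u) : ℝ) = y (.inr v) := fun v => by
    have := y2 (.inl v)
    simp [bd, inc, Fintype.sum_prod_type, sum_ite_fst, z1] at this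
    linarith
  have z3 : ∀ v, ∑ u, (z (u, v) : ℝ) = y (.inr v) := fun v => by
    have := y2 (.inr v)
    simp [bd, inc, Fintype.sum_prod_type, z1] at this
    linarith
  refine ⟨z, fun e he => ?_, fun v => by exact_mod_cast (z2 v).trans (z3 v).symm,
    fun S a b => ?_, fun v => ?_, ?_⟩
  · by_contra k
    have k1 : t e = 0 := by rw [ht]; exact if_neg fun h => k (t2 e h)
    have k2 : y (.inl e) ≤ ⌈t e + g e⌉ := (y1 (.inl e)).2
    have k3 : ⌈t e + g e⌉ ≤ 0 := Int.ceil_le.2 (by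
      rw [k1, Int.cast_zero]
      nlinarith [(g1 e).2])
    have := hz e
    omega
  · obtain ⟨e, he⟩ := tree_cut t0 a b
    rw [P061Z.Final.cut_eq (u := Prod.fst) (v := Prod.snd) fun _ => rfl] at he
    obtain ⟨k1, k2⟩ := mem_filter.1 he
    have k3 : ⌊t e + g e⌋ ≤ y (.inl e) := (y1 (.inl e)).1
    have k4 : 1 ≤ ⌊t e + g e⌋ := Int.le_floor.2 (by
      rw [ht]
      simpa [k1] using (g1 e).1)
    have := hz e
    exact ⟨e, by omega, k2⟩
  · obtain ⟨k1, k2⟩ := deg_ge hx hc v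
    have k3 : (y (.inr v) : ℝ) ≤ ⌈∑ u, (t (v, u) + g (v, u))⌉ := Int.cast_le.2 (y1 (.inr v)).2
    have k4 := Int.ceil_lt_add_one (∑ u, (t (v, u) + g (v, u)))
    have k5 : ∑ u, g (v, u) ≤ 10 ^ 94 * ∑ u, x v u := by
      rw [mul_sum]
      exact sum_le_sum fun u _ => (g1 (v, u)).2
    have k6 := sum_out (fun a b => t (a, b)) {v}
    have k7 := t1 {v}
    have k8 := sum_nonneg fun e (_ : e ∈ univ.filter fun e : V × V =>
      e.1 ∉ ({v} : Finset V) ∧ e.2 ∈ ({v} : Finset V)) => (t4 e).1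
    have k9 := sum_compl_add_sum {v} fun u => t (v, u)
    rw [sum_singleton] at k6 k9
    rw [sum_add_distrib] at k3 k4
    rw [Nat.cast_sum, z2]
    linarith [(t4 (v, v)).2]
  · have k1 : ∑ e : V × V, c e.1 e.2 * g e ≤ 10 ^ 94 * ∑ e : V × V, c e.1 e.2 * x e.1 e.2 := by
      rw [mul_sum]
      exact sum_le_sum fun e _ => by nlinarith [(g1 e).2, c0 e.1 e.2]
    have k2 : ∑ e : V × V, c e.1 e.2 * t e = ∑ e ∈ T i, c e.1 e.2 := by simp [ht]
    have k3 : 0 ≤ ∑ e : V × V, c e.1 e.2 * x e.1 e.2 :=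
      sum_nonneg fun e _ => mul_nonneg (c0 _ _) (hx _ _)
    simp [z1, mul_add, sum_add_distrib] at y3
    linarith

include hx hb hc c0 in
/-- the closed walk -/
theorem walk : ∃ (M : ℕ) (W : ℕ → V), 0 < M ∧ (∀ j, W (j + M) = W j) ∧
    (∀ j, 0 < x (W j) (W (j + 1))) ∧ (∀ v, ∃ j < M, W j = v) ∧
    (∀ v, (#{j ∈ range M | W j = v} : ℝ) ≤ 3 * 10 ^ 94 * ∑ u, x v u) ∧
    ∑ j ∈ range M, c (W j) (W (j + 1)) ≤ 2 * 10 ^ 94 * ∑ u, ∑ v, c u v * x u v := by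
  classical
  obtain ⟨y, y1, y2, y3, y4, y5⟩ := circ hx hb hc c0
  have h1 : ∀ v, #{a : Σ e, Fin (y e) | a.1.1 = v} = ∑ u, y (v, u) := fun v => by
    rw [card_copies y fun e => e.1 = v, sum_filter]
    simp [Fintype.sum_prod_type, sum_ite_fst]
  have h2 : ∀ v, #{a : Σ e, Fin (y e) | a.1.2 = v} = ∑ u, y (u, v) := fun v => by
    rw [card_copies y fun e => e.2 = v, sum_filter]
    simp [Fintype.sum_prod_type]
  have h3 : ∀ S : Finset V, S.Nonempty → S ≠ univ → ∃ e, y e ≠ 0 ∧ e.1 ∉ S ∧ e.2 ∈ S := by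
    intro S a b
    by_contra k
    have k1 := sum_bd_set Prod.fst Prod.snd (fun e => (y e : ℝ)) S
    rw [sum_eq_zero fun n _ => by rw [bd_prod, sub_eq_zero]; exact_mod_cast y2 n,
      sum_eq_zero (s := univ.filter fun e : V × V => e.1 ∉ S ∧ e.2 ∈ S) fun e he =>
        Nat.cast_eq_zero.2 (not_not.1 fun h => k ⟨e, h, (mem_filter.1 he).2⟩), sub_zero] at k1
    obtain ⟨e, k2, k3⟩ := y3 S a b
    by_cases k4 : e.1 ∈ S
    · exact k2 (Nat.cast_eq_zero.1 ((sum_eq_zero_iff_of_nonneg fun _ _ => Nat.cast_nonneg _).1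
        k1.symm e (mem_filter.2 ⟨mem_univ _, k4, by tauto⟩)))
    · exact k ⟨e, k2, k4, by tauto⟩
  have h4 : ∀ v, ∃ a : Σ e, Fin (y e), a.1.1 = v := fun v => by
    obtain ⟨w, hw⟩ := exists_ne v
    obtain ⟨e, k1, k2, -⟩ := h3 {v}ᶜ ⟨w, by simpa using hw⟩ fun h => by
      simpa using eq_univ_iff_forall.1 h v
    exact ⟨⟨e, ⟨0, Nat.pos_of_ne_zero k1⟩⟩, by simpa using k2⟩
  obtain ⟨a₀, -⟩ := h4 (Classical.arbitrary V)
  obtain ⟨σ, s1, s2⟩ := euler (fun a : Σ e, Fin (y e) => a.1.1) (fun a => a.1.2) a₀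
    (fun v => by rw [h1, h2, y2]) fun S k1 k2 i => by
      by_contra k3
      obtain ⟨e, k4, k5, k6⟩ := h3 (univ.filter (· ∈ S)) ⟨_, mem_filter.2 ⟨mem_univ _, k2⟩⟩
        fun h => k3 (mem_filter.1 (eq_univ_iff_forall.1 h i.1.2)).2
      exact k5 (mem_filter.2 ⟨mem_univ _,
        k1 ⟨e, ⟨0, Nat.pos_of_ne_zero k4⟩⟩ (mem_filter.1 k6).2⟩)
  have s3 : σ.IsCycleOn (univ : Finset (Σ e, Fin (y e))) :=
    ⟨by simp, fun a _ b _ => (s2 a).symm.trans (s2 b)⟩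
  have s4 : ∀ j, ((σ ^ (j + 1)) a₀).1.1 = ((σ ^ j) a₀).1.2 := fun j => by
    rw [pow_succ', Equiv.Perm.mul_apply, s1]
  have s5 : ∀ F : (Σ e, Fin (y e)) → ℝ,
      ∑ j ∈ range #(univ : Finset (Σ e, Fin (y e))), F ((σ ^ j) a₀) = ∑ a, F a := fun F =>
    sum_bij (fun j _ => (σ ^ j) a₀) (fun _ _ => mem_univ _) (fun j hj l hl h =>
      ((s3.pow_apply_eq_pow_apply (mem_univ _)).1 h).eq_of_lt_of_lt (mem_range.1 hj)
        (mem_range.1 hl)) (fun a _ => by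
      obtain ⟨j, k1, k2⟩ := s3.exists_pow_eq (mem_univ a₀) (mem_univ a)
      exact ⟨j, mem_range.2 k1, k2⟩) fun _ _ => rfl
  refine ⟨#(univ : Finset (Σ e, Fin (y e))), fun j => ((σ ^ j) a₀).1.1,
    card_pos.2 ⟨a₀, mem_univ _⟩, fun j => ?_, fun j => ?_, fun v => ?_, fun v => ?_, ?_⟩
  · simp only [pow_add, Equiv.Perm.mul_apply, s3.pow_card_apply (mem_univ _)]
  · simp only [s4]
    exact y1 _ (Nat.pos_iff_ne_zero.1 ((σ ^ j) a₀).2.pos)
  · obtain ⟨a, rfl⟩ := h4 v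
    obtain ⟨j, k1, k2⟩ := s3.exists_pow_eq (mem_univ a₀) (mem_univ a)
    exact ⟨j, k1, by simp only [k2]⟩
  · have := s5 fun a => if a.1.1 = v then 1 else 0
    simp only [sum_boole, h1] at this
    exact this.trans_le (y4 v)
  · simp only [s4]
    rw [s5 fun a => c a.1.1 a.1.2, ← Fintype.sum_prod_type' fun u v => c u v * x u v]
    refine le_trans (le_of_eq ?_) y5
    rw [Fintype.sum_sigma]
    simp [mul_comm]

omit [Nontrivial V] in
/-- shortcutting a closed walk (An, Kleinberg, Shmoys) -/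
theorem shortcut {M t : ℕ} {W : ℕ → V} (hM : 0 < M) (hW : ∀ j, W (j + M) = W j)
    (h1 : ∀ v, ∃ j < M, W j = v) (h2 : ∀ v, #{j ∈ range M | W j = v} ≤ t) :
    ∃ (n : ℕ) (e : Fin (n + 1) ≃ V),
      (∀ i, ∃ a d, d + 1 ≤ 3 * t ∧ W a = e i ∧ W (a + (d + 1)) = e (i + 1)) ∧
      ((∀ u v w, c u w ≤ c u v + c v w) →
        ∑ i, c (e i) (e (i + 1)) ≤ ∑ j ∈ range M, c (W j) (W (j + 1))) := by
  have t0 : 0 < t := lt_of_lt_of_le (card_pos.2 ⟨0, by simpa using hM⟩) (h2 (W 0))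
  have q1 : ∀ (j : Fin (M / t)) i, i < t → j * t + i < M := fun j i hi => by
    have := Nat.mul_le_mul_right t (Nat.succ_le_of_lt j.2)
    have := Nat.div_mul_le_self M t
    rw [Nat.succ_mul] at *
    omega
  obtain ⟨f, f1, f2⟩ := (all_card_le_biUnion_card_iff_exists_injective
    fun j : Fin (M / t) => (range t).image fun i => W (j * t + i)).1 fun s => by
      have k1 := card_le_mul_card_image (f := fun a : Fin (M / t) × ℕ => W (a.1 * t + a.2))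
        (s ×ˢ range t) t fun v _ => le_trans (card_le_card_of_injOn (fun a => a.1 * t + a.2)
          (fun a ha => mem_filter.2 ⟨mem_range.2 (q1 _ _ (mem_range.1
            (mem_product.1 (mem_filter.1 ha).1).2)), (mem_filter.1 ha).2⟩) fun a ha b hb h => by
          have a1 := mem_range.1 (mem_product.1 (mem_filter.1 ha).1).2
          have b1 := mem_range.1 (mem_product.1 (mem_filter.1 hb).1).2
          have h' : (a.1 : ℕ) * t + a.2 = b.1 * t + b.2 := h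
          have h3 := congrArg (· % t) h'
          simp only [Nat.mul_add_mod', Nat.mod_eq_of_lt a1, Nat.mod_eq_of_lt b1] at h3
          exact Prod.ext (Fin.ext (Nat.eq_of_mul_eq_mul_right t0 (by omega))) h3) (h2 v)
      rw [card_product, card_range, mul_comm] at k1
      refine (Nat.le_of_mul_le_mul_left k1 t0).trans (card_le_card fun v hv => ?_)
      obtain ⟨a, k2, rfl⟩ := mem_image.1 hv
      exact mem_biUnion.2 ⟨a.1, (mem_product.1 k2).1, mem_image_of_mem _ (mem_product.1 k2).2⟩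
  have h3 : ∀ v, ∃ z < M, W z = v ∧ ∀ j, f j = v → j * t ≤ z ∧ z < j * t + t := fun v => by
    by_cases k : ∃ j, f j = v
    · obtain ⟨j, rfl⟩ := k
      obtain ⟨i, k1, k2⟩ := mem_image.1 (f2 j)
      have := mem_range.1 k1
      exact ⟨_, q1 j i this, k2, fun l hl => by rw [f1 hl]; omega⟩
    · obtain ⟨z, k1, k2⟩ := h1 v
      exact ⟨z, k1, k2, fun j hj => absurd ⟨j, hj⟩ k⟩
  choose p p1 p2 p3 using h3
  obtain ⟨n, hn⟩ := Nat.exists_eq_add_one_of_ne_zero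
    (card_ne_zero.2 ⟨p (W 0), mem_image_of_mem p (mem_univ _)⟩)
  obtain ⟨r, hr⟩ : ∃ r : Fin (n + 1) ↪o ℕ, Set.range r = Set.range p :=
    ⟨(univ.image p).orderEmbOfFin hn, by simp⟩
  have r1 : ∀ i, ∃ v, p v = r i := fun i => (hr ▸ Set.mem_range_self i : r i ∈ Set.range p)
  have r2 : ∀ v, ∃ i, r i = p v := fun v => (hr ▸ Set.mem_range_self v : p v ∈ Set.range r)
  have r3 : ∀ i, r i < M := fun i => by
    obtain ⟨v, h⟩ := r1 i
    exact h ▸ p1 v
  obtain ⟨R, hR⟩ : ∃ R : Fin (n + 1) → ℕ,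
    R = fun i => r (i + 1) + if i = Fin.last n then M else 0 := ⟨_, rfl⟩
  have R1 : ∀ i, r i < R i ∧ R i ≤ r i + 3 * t := fun i => by
    have a1 := r3 i
    have a2 := r3 (i + 1)
    have a3 := Nat.div_mul_le_self (r i) t
    have a4 := Nat.lt_div_mul_add (a := r i) t0
    have a5 := Nat.lt_div_mul_add (a := M) t0
    rw [hR]
    by_cases k : r i / t + 1 < M / t
    · obtain ⟨l, hl⟩ := r2 (f ⟨_, k⟩)
      obtain ⟨b1, b2⟩ := p3 _ ⟨_, k⟩ rfl
      simp only [add_mul, one_mul, ← hl] at b1 b2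
      have b3 : i < l := r.lt_iff_lt.1 (by omega)
      have b4 := b3.trans_le (Fin.le_last l)
      have b5 := r.lt_iff_lt.2 (Fin.lt_add_one_iff.2 b4)
      have b6 := r.le_iff_le.2 (Fin.add_one_le_of_lt b3)
      simp only [if_neg b4.ne]
      omega
    · have b1 := Nat.mul_le_mul_right t (not_lt.1 k)
      rw [add_mul] at b1
      by_cases l : i = Fin.last n
      · have b2 : r (i + 1) < t := by
          rcases (M / t).eq_zero_or_pos with b | b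
          · rw [b] at a5
            omega
          · obtain ⟨l', hl⟩ := r2 (f ⟨0, b⟩)
            have b3 := (p3 _ ⟨0, b⟩ rfl).2
            have b4 := r.le_iff_le.2 (Fin.zero_le l')
            rw [l, Fin.last_add_one]
            simp only [zero_mul] at b3
            omega
        simp only [if_pos l]
        omega
      · have b5 := r.lt_iff_lt.2 (Fin.lt_add_one_iff.2 (Fin.lt_last_iff_ne_last.2 l))
        simp only [if_neg l]
        omega
  obtain ⟨F, hF⟩ : ∃ F : ℕ → ℝ, F = fun b => ∑ j ∈ range b, c (W j) (W (j + 1)) := ⟨_, rfl⟩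
  have F1 : (∀ u v w, c u w ≤ c u v + c v w) →
      ∀ a d, c (W a) (W (a + (d + 1))) ≤ F (a + (d + 1)) - F a := fun tri a d => by
    induction d with
    | zero => simp [hF, sum_range_succ]
    | succ d ih =>
      have k1 := tri (W a) (W (a + (d + 1))) (W (a + (d + 1) + 1))
      have k2 : F (a + (d + 1) + 1) = F (a + (d + 1)) + c (W (a + (d + 1))) (W (a + (d + 1) + 1)) := by
        simp only [hF, sum_range_succ]
      rw [← add_assoc a]
      linarith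
  have F2 : ∀ i, F (R i) = F (r (i + 1)) + if i = Fin.last n then F M else 0 := fun i => by
    rw [hR]
    dsimp only
    split_ifs
    · simp only [hF]
      rw [add_comm _ M, sum_range_add, add_comm]
      congr 1
      exact sum_congr rfl fun j _ => by rw [add_comm M, hW, add_right_comm, hW]
    · simp
  have F3 : ∀ i, ∃ d, d + 1 ≤ 3 * t ∧ R i = r i + (d + 1) ∧ W (R i) = W (r (i + 1)) := fun i => by
    obtain ⟨d, hd⟩ := Nat.exists_eq_add_of_lt (R1 i).1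
    refine ⟨d, by linarith [(R1 i).2], hd, ?_⟩
    rw [hR]
    dsimp only
    split_ifs
    exacts [hW _, rfl]
  refine ⟨n, Equiv.ofBijective (fun i => W (r i)) ⟨fun i j h => ?_, fun v => ?_⟩,
    fun i => ((F3 i).imp fun d h => ⟨h.1, rfl, h.2.1 ▸ h.2.2⟩).elim fun d h => ⟨r i, d, h⟩,
    fun tri => ?_⟩
  · obtain ⟨u, hu⟩ := r1 i
    obtain ⟨v, hv⟩ := r1 j
    simp only [← hu, ← hv, p2] at h
    exact r.injective (by rw [← hu, ← hv, h])
  · obtain ⟨i, hi⟩ := r2 v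
    exact ⟨i, by simp only [hi, p2]⟩
  · refine (sum_le_sum (g := fun i => F (R i) - F (r i)) fun i _ => ?_).trans (le_of_eq ?_)
    · obtain ⟨d, -, k1, k2⟩ := F3 i
      have := F1 tri (r i) d
      rwa [← k1, k2] at this
    simp only [F2, sum_sub_distrib, sum_add_distrib]
    rw [show ∑ i, F (r (i + 1)) = ∑ i, F (r i) from 
      Equiv.sum_comp (Equiv.addRight (1 : Fin (n + 1))) fun i => F (r i)]
    simp [hF]

include hx hb hc c0 in
theorem tours : (∃ (M : ℕ) (W : ℕ → V), 0 < M ∧ W M = W 0 ∧ (∀ j < M, 0 < x (W j) (W (j + 1))) ∧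
      (∀ v, ∃ j < M, W j = v) ∧
      (∀ v, (#{j ∈ range M | W j = v} : ℝ) ≤ 10 ^ 95 * ∑ u, x v u) ∧
      ∑ j ∈ range M, c (W j) (W (j + 1)) ≤ 10 ^ 95 * ∑ u, ∑ v, c u v * x u v) ∧
    ∀ t : ℝ, (∀ v, ∑ u, x v u ≤ t) → ∃ (n : ℕ) (e : Fin (n + 1) ≃ V),
      (∀ i, ∃ (l : ℕ) (p : ℕ → V), l ≤ 10 ^ 95 * t ∧ p 0 = e i ∧ p l = e (i + 1) ∧
        ∀ j < l, 0 < x (p j) (p (j + 1))) ∧
      ((∀ u v w, c u w ≤ c u v + c v w) →
        ∑ i, c (e i) (e (i + 1)) ≤ 10 ^ 95 * ∑ u, ∑ v, c u v * x u v ∧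
        ∀ B, (∀ u v, 0 < x u v → c u v ≤ B) → ∀ i, c (e i) (e (i + 1)) ≤ 10 ^ 95 * t * B) := by
  obtain ⟨M, W, h1, h2, h3, h4, h5, h6⟩ := walk hx hb hc c0
  have p1 : ∀ v, 0 ≤ ∑ u, x v u := fun v => sum_nonneg fun u _ => hx v u
  have p2 : 0 ≤ ∑ u, ∑ v, c u v * x u v :=
    sum_nonneg fun u _ => sum_nonneg fun v _ => mul_nonneg (c0 u v) (hx u v)
  refine ⟨⟨M, W, h1, by simpa using h2 0, fun j _ => h3 j, h4, fun v => by linarith [h5 v, p1 v],
    by linarith⟩, fun t ht => ?_⟩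
  have p3 : 0 ≤ t := (p1 (W 0)).trans (ht _)
  obtain ⟨n, e, k1, k2⟩ := shortcut (c := c) (t := ⌊3 * 10 ^ 94 * t⌋₊) h1 h2 h4 fun v =>
    Nat.le_floor (by linarith [h5 v, ht v])
  have p4 : ∀ d : ℕ, d + 1 ≤ 3 * ⌊3 * 10 ^ 94 * t⌋₊ → ((d + 1 : ℕ) : ℝ) ≤ 10 ^ 95 * t := fun d h => by
    have a1 : ((d + 1 : ℕ) : ℝ) ≤ (3 * ⌊3 * 10 ^ 94 * t⌋₊ : ℕ) := Nat.cast_le.2 h
    have a2 := Nat.floor_le (show 0 ≤ 3 * 10 ^ 94 * t by positivity)
    rw [Nat.cast_mul, Nat.cast_ofNat] at a1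
    linarith
  refine ⟨n, e, fun i => ?_, fun tri => ⟨by linarith [k2 tri], fun B hB i => ?_⟩⟩ <;>
    obtain ⟨a, d, a1, a2, a3⟩ := k1 i
  · exact ⟨d + 1, fun j => W (a + j), p4 d a1, a2, a3, fun j _ => h3 (a + j)⟩
  · have a4 : ∀ d : ℕ, c (W a) (W (a + (d + 1))) ≤ (d + 1 : ℕ) * B := fun d => by
      induction d with
      | zero => simpa using hB _ _ (h3 a)
      | succ d ih =>
        rw [← add_assoc a, Nat.cast_add_one, add_mul]
        linarith [tri (W a) (W (a + (d + 1))) (W (a + (d + 1) + 1)), hB _ _ (h3 (a + (d + 1)))]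
    rw [← a2, ← a3]
    exact (a4 d).trans (mul_le_mul_of_nonneg_right (p4 d a1) ((c0 _ _).trans (hB _ _ (h3 0))))

end Vale.Agent.N061.T
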